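import Vale.Agent.P113.R2.H540.Main
import Vale.Agent.P113.R2.H961.Flow

/-!
# Halting detection by particle trajectories of forced Navier-Stokes flows from rest

One rational point `a`, one rational open box (with corners `l` and `r`) and one force compiler `F`
such that, for every viscosity `ν > 0`, every machine `M` and every input `w`, the Navier-Stokes
system on the torus with force `F M w` and initial velocity zero has a smooth global solution, which
is unique among classical solutions, and whose trajectory from `a` enters the box at some time
`t ≥ 0` if and only if `M` halts on `w`.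
-/

open Vale.Agent.P113 in
theorem Vale.Agent.Results.P113.HaltingByTrajectory.result :
    ∃ (a l r : Fin 3 → ℚ) (F : Machine → List ℕ → Fin 3 → List Term),
      (∀ i, l i < r i) ∧ IsForceCompiler F ∧
      ∀ ν : ℝ, 0 < ν → ∀ (M : Machine) (w : List ℕ),
        ∃ u p, IsUniqueSmoothSolution ν (field ν (F M w)) u p ∧
          ∃ X, IsTrajectory u (fun i => a i) X ∧
            (∀ Y, IsTrajectory u (fun i => a i) Y → ∀ t ∈ Set.Ici (0 : ℝ), Y t = X t) ∧
            ((∃ t : ℝ, 0 ≤ t ∧ proj (X t) ∈ openBox l r) ↔ M.HaltsOn w) :=
  Vale.Agent.P113.R2.H540.main Vale.Agent.P113.flow
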